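import Mathlib
import Vale.Agent.P042.Atoms

namespace Vale.Agent.Results.P042.Lower

open Finset Polynomial

/-- No difference of two elements of `A` is a nonzero value `h(n)` with `n ≥ 1`. -/
def Avoids (h : Polynomial ℤ) (A : Finset ℤ) : Prop :=
  ∀ a ∈ A, ∀ b ∈ A, ∀ n : ℤ, 1 ≤ n → a - b = h.eval n → a - b = 0

/-- `r_h(N)`: the largest size of a subset of `{1, …, N}` avoiding the nonzero values of `h`. -/
noncomputable def rmax (h : Polynomial ℤ) (N : ℕ) : ℕ :=
  sSup {m : ℕ | ∃ A : Finset ℤ, A ⊆ Icc 1 (N : ℤ) ∧ Avoids h A ∧ A.card = m}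

theorem le_rmax (h : Polynomial ℤ) (N : ℕ) (A : Finset ℤ) (h1 : A ⊆ Icc 1 (N : ℤ))
    (h2 : Avoids h A) : A.card ≤ rmax h N := by
  apply le_csSup
  · refine ⟨N, ?_⟩
    rintro m ⟨B, hB, -, rfl⟩
    simpa using card_le_card hB
  · exact ⟨A, h1, h2, rfl⟩

open Vale.Agent.P042 in
theorem result : ∃ c : ℝ, 0 < c ∧ ∀ N : ℕ, 1 ≤ N →
    c * (N : ℝ) ^ ((34 : ℝ) / 45) ≤ (rmax (X ^ 2) N : ℝ) := by
  obtain ⟨B, hB⟩ : ∃ B : ℕ, B = bigM * 2 ^ 26 := ⟨_, rfl⟩
  have hB2 : 2 ≤ B := by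
    have := bigM_pos
    rw [hB]; omega
  have hBS : (B : ℝ) ^ ((34 : ℝ) / 45) ≤ bigS := by
    have h1 : ((B : ℝ) ^ (34 : ℕ)) ≤ (bigS : ℝ) ^ (45 : ℕ) := by
      have := big_ineq
      rw [← hB] at this
      exact_mod_cast this
    have h2 : ((B : ℝ) ^ ((34 : ℝ) / 45)) ^ (45 : ℕ) = (B : ℝ) ^ (34 : ℕ) := by
      rw [← Real.rpow_natCast, ← Real.rpow_mul (by positivity), ← Real.rpow_natCast]
      norm_num
    exact (pow_le_pow_iff_left₀ (by positivity) (by positivity) (by norm_num : (45 : ℕ) ≠ 0)).mp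
      (h2 ▸ h1)
  have hBR : (2 : ℝ) ≤ B := by exact_mod_cast hB2
  refine ⟨1 / (22 * B), by positivity, fun N hN => ?_⟩
  have hNR : (1 : ℝ) ≤ N := by exact_mod_cast hN
  rw [div_mul_eq_mul_div, one_mul, div_le_iff₀ (by positivity)]
  by_cases h11 : N < 11
  · have h1 : 1 ≤ rmax (X ^ 2) N := by
      have := le_rmax (X ^ 2) N {1} (by simp; omega) (by
        intro a ha b hb n _ _
        simp only [mem_singleton] at ha hb
        rw [ha, hb, sub_self])
      simpa using this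
    have h1' : (1 : ℝ) ≤ rmax (X ^ 2) N := by exact_mod_cast h1
    have h2 : (N : ℝ) ^ ((34 : ℝ) / 45) ≤ N := by
      have := Real.rpow_le_rpow_of_exponent_le hNR (by norm_num : (34 : ℝ) / 45 ≤ 1)
      simpa using this
    have h3 : (N : ℝ) ≤ 11 := by exact_mod_cast h11.le
    nlinarith
  · push Not at h11
    obtain ⟨L, hL⟩ : ∃ L, L = Nat.log B (N / 11) := ⟨_, rfl⟩
    have hl1 : B ^ L ≤ N / 11 := hL ▸ Nat.pow_log_le_self B (by omega)
    have hl2 : N / 11 < B ^ (L + 1) := hL ▸ Nat.lt_pow_succ_log_self (by omega) _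
    have hl3 : 11 * B ^ L ≤ N := by omega
    have hl4 : N ≤ 11 * B ^ (L + 1) := by omega
    obtain ⟨A, hA1, hA2, hA3⟩ := (fam_all L).final (pow_pos bigM_pos L) (by positivity)
    have hA4 : A ⊆ Icc 1 (N : ℤ) := by
      refine hA1.trans (Icc_subset_Icc le_rfl ?_)
      have : bigM ^ L * (11 * (2 ^ 26) ^ L) = 11 * B ^ L := by rw [hB, mul_pow]; ring
      rw [this]
      exact_mod_cast hl3
    have hA5 : Avoids (X ^ 2) A := by
      intro a ha b hb n hn h
      have := hA3 a ha b hb n (by simpa using h)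
      omega
    have h1 : (bigS : ℝ) ^ L ≤ 2 * (rmax (X ^ 2) N : ℝ) := by
      have := le_rmax _ N A hA4 hA5
      have h2 : bigS ^ L ≤ 2 * rmax (X ^ 2) N := by omega
      exact_mod_cast h2
    have h2 : (N : ℝ) ≤ (11 * B) * (B : ℝ) ^ L := by
      have : (N : ℝ) ≤ 11 * (B : ℝ) ^ (L + 1) := by exact_mod_cast hl4
      rw [pow_succ] at this
      linarith
    have h3 : (N : ℝ) ^ ((34 : ℝ) / 45) ≤ (11 * B) * (bigS : ℝ) ^ L := by
      refine (Real.rpow_le_rpow (by positivity) h2 (by norm_num)).trans ?_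
      rw [Real.mul_rpow (by positivity) (by positivity)]
      apply mul_le_mul _ _ (by positivity) (by positivity)
      · have := Real.rpow_le_rpow_of_exponent_le (x := 11 * (B : ℝ)) (by linarith)
          (by norm_num : (34 : ℝ) / 45 ≤ 1)
        simpa using this
      · rw [← Real.rpow_natCast, ← Real.rpow_mul (by positivity), mul_comm,
          Real.rpow_mul (by positivity), Real.rpow_natCast]
        exact pow_le_pow_left₀ (by positivity) hBS L
    nlinarith

end Vale.Agent.Results.P042.Lower
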